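import Vale.Agent.P116.T.TopC
import Vale.Agent.P116.T.Fin

namespace Vale.Agent.Results.P116.A0_full

open Vale.Agent.P116 Vale.Agent.P116.T

theorem result (G : Set (OnePoint ℂ)) (hG : IsDomain G) :
    ∃ Ω : Set (OnePoint ℂ), IsCircleDomain Ω ∧ ConfEq G Ω :=
  thmC seqEx hG

end Vale.Agent.Results.P116.A0_full
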