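import Vale.Agent.P116.T.Top
import Vale.Agent.P116.T.Fin

namespace Vale.Agent.Results.P116.B_square

open Vale.Agent.P116 Vale.Agent.P116.T Set Complex

theorem result (G : Set (OnePoint ℂ)) (hG : IsDomain G) :
    ∃ (F V : Set ℂ) (φ : ℂ → ℂ), IsCompact F ∧ IsOpen V ∧ F ⊆ V ∧ DifferentiableOn ℂ φ V ∧
      InjOn φ V ∧ (∀ y ∈ F, ∃ (a b s : ℝ), 0 ≤ s ∧
        connectedComponentIn F y = Icc a (a + s) ×ℂ Icc b (b + s)) ∧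
      ConfEq G ((fun z : ℂ => (z : OnePoint ℂ)) '' (φ '' F))ᶜ := by
  obtain ⟨F, V, φ, h, k⟩ := thmB seqEx hG
  exact ⟨F, V, φ, h.cpt, h.op, h.sub, h.hol, h.inj, fun y hy =>
    (h.cmp y hy).elim fun ζ ⟨σ, h0, e⟩ => ⟨ζ.re, ζ.im, σ, h0, e⟩, k⟩

end Vale.Agent.Results.P116.B_square
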