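import Vale.Agent.P116.S.Main

namespace Vale.Agent.Results.P116.S1_step5

open Vale.Agent.P116

theorem result (E : Set ℂ) (μ : ℝ) (s w : ℕ → TF E) (hE : Dom E) (h : Seq E μ s w) :
    ∃ f ζ σ, Out E f ζ σ :=
  step5 hE h

end Vale.Agent.Results.P116.S1_step5
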