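import Vale.Agent.P116.K.ZZ

namespace Vale.Agent.Results.P116.S2_stream

open Vale.Agent.P116 Vale.Agent.P116.K

theorem result (P : Par) (b : ℕ → TF P.E) (c : ℝ) (pl : ℕ → P.It →₀ ℝ) (τ : ℕ → ℂ → ℝ)
    (k : ℕ → ℕ) (A : List (TF P.E)) (hA : Fam A) (hin : ∀ a ∈ A, ∃ i, b i = a)
    (hb : ∀ i, ∃ M : ℝ, ∀ z ∈ Qc, -M ≤ (b i).lo z ∧ (b i).hi z ≤ M) (h : P.Pls b c pl τ k) :
    ∃ s : TF P.E, s.H ∧ Fam (s :: A) ∧ s.en ≤ (1 + P.ε) ^ 2 * c ^ 2 :=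
  Par.stream hA hin hb h

end Vale.Agent.Results.P116.S2_stream
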